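import Mathlib
import Vale.Agent.P342.H472.Model
import Vale.Agent.P342.H472.Dec
import Vale.Agent.P342.H399.SoundFinal
import Vale.Agent.P342.H948.Compl

/-!
# P342: it is NP-hard to tell 3-colourable graphs from graphs that are not `c`-colourable

For every constant `c ≥ 3`. Languages are sets of binary words, `classNP` is NP, `PolyTime` is
polynomial time on the multi-stack Turing machines of Mathlib, and `graphWord` is the adjacency
matrix of a graph on `{0, …, n - 1}`, row by row (file `Vale/Agent/P342/H472/Model.lean`).
-/

namespace Vale.Agent.Results.P342.ThreeVersusC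

open Vale.Agent.P342

/-- (1) Every language in NP reduces in polynomial time (many-one) to the promise problem of telling
3-colourable graphs from graphs that are not `c`-colourable. (2) If a polynomial time algorithm
accepts all 3-colourable graphs and rejects all graphs that are not `c`-colourable, then
NP equals P. -/
theorem result (c : ℕ) (_hc : 3 ≤ c) :
    (∀ L ∈ classNP, ∃ f : List Bool → List Bool,
      PolyTime (fun w : List Bool => w) (fun w : List Bool => w) f ∧
      ∀ x, ∃ (n : ℕ) (G : SimpleGraph (Fin n)), f x = graphWord G ∧
        (x ∈ L → G.Colorable 3) ∧ (x ∉ L → ¬ G.Colorable c)) ∧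
    ((∃ dec : List Bool → Bool,
      PolyTime (fun w : List Bool => w) (fun b : Bool => [b]) dec ∧
      ∀ (n : ℕ) (G : SimpleGraph (Fin n)), (G.Colorable 3 → dec (graphWord G) = true) ∧
        (¬ G.Colorable c → dec (graphWord G) = false)) → classNP = classP) := by
  have hard := fun L hL => Red.np_hard (fun c => soundness c) (fun r l G h => completeness l h) c
    (L := L) hL
  exact ⟨hard, fun h => Red.np_eq_p hard h⟩

end Vale.Agent.Results.P342.ThreeVersusC
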